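import Vale.Agent.P102.Bdl.B1

open MeasureTheory Vale.Agent.P102

private theorem mixingOfOrder_bridge_P102 {Ω : Type*} [MeasurableSpace Ω] (μ : Measure Ω)
    (T : Ω ≃ᵐ Ω) (k : ℕ) (h : MixingOfOrder μ T.toEquiv k) : Ext.MixingOfOrder μ T k := by
  intro A hA ε hε
  obtain ⟨N, hN⟩ := h A hA ε hε
  exact ⟨N, fun t ht => hN t fun i j hij => by linarith [ht i j hij]⟩

theorem Vale.Agent.Results.P102.Main.result.{u, v, w} :
    (∀ m : ℕ, 2 ≤ m → ∃ c : ℝ, 0 ≤ c ∧ c < 1 ∧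
      ∀ (Ω : Type u) [MeasurableSpace Ω] (μ : Measure Ω) [IsProbabilityMeasure μ] (T : Ω ≃ᵐ Ω),
        MeasurePreserving T μ μ →
        (MixingOfOrder μ T.toEquiv m →
          (∀ A : Fin (m + 1) → Set Ω, (∀ i, MeasurableSet (A i)) → ∀ ε : ℝ, 0 < ε →
            ∃ N : ℤ, ∀ t : Fin (m + 1) → ℤ, (∀ i j, i < j → t i + N ≤ t j) →
              |μ.real (⋂ i, (T.toEquiv ^ t i : Equiv.Perm Ω) ⁻¹' A i) - ∏ i, μ.real (A i)| ≤
                c * (∏ i, Real.sqrt (μ.real (A i) * (1 - μ.real (A i)))) + ε) ∧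
          (∀ f : Fin (m + 1) → Ω → ℂ, (∀ i, Measurable (f i)) →
            (∀ i, ∃ C : ℝ, ∀ x, ‖f i x‖ ≤ C) → ∀ ε : ℝ, 0 < ε →
            ∃ N : ℤ, ∀ t : Fin (m + 1) → ℤ, (∀ i j, i < j → t i + N ≤ t j) →
              ‖(∫ x, ∏ i, f i ((T.toEquiv ^ t i : Equiv.Perm Ω) x) ∂μ) -
                  ∏ i, ∫ x, f i x ∂μ‖ ≤
                c * (∏ i, Real.sqrt (∫ x, ‖f i x - ∫ y, f i y ∂μ‖ ^ 2 ∂μ)) + ε)) ∧
        (MixingOfOrder μ T.toEquiv 2 →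
          ∀ f : Fin (m + 1) → Ω → ℂ, (∀ i, Measurable (f i)) → (∀ i x, ‖f i x‖ ≤ 1) →
            (∃ l, ∫ x, f l x ∂μ = 0) →
            ∃ N : ℤ, ∀ t : Fin (m + 1) → ℤ, (∀ i j, i < j → t i + N ≤ t j) →
              ‖∫ x, ∏ i, f i ((T.toEquiv ^ t i : Equiv.Perm Ω) x) ∂μ‖ ≤ c)) ∧
    (∀ (Ω : Type v) (X : Type w) [MeasurableSpace Ω] [MeasurableSpace X]
        (P : Measure Ω) (μ : Measure X) [IsProbabilityMeasure P] [IsProbabilityMeasure μ]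
        (d : ℕ) [AddAction (Fin d → ℤ) X] (θ : Ω ≃ᵐ Ω) (φ : Ω → (Fin d → ℤ)),
        MixingAction μ d → MeasurePreserving θ P P → Measurable φ →
        MeasurePreserving (skewProduct X θ.toEquiv φ) (P.prod μ) (P.prod μ) ∧
        Measurable (skewProduct X θ.toEquiv φ).symm ∧
        ∀ k : ℕ, MixingOfOrder (P.prod μ) (skewProduct X θ.toEquiv φ) k ↔
          MixingOfOrder P θ.toEquiv k ∧
          ∀ c : Fin d → ℤ, CohomologousToConst P θ.toEquiv φ c →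
            MixingOfOrder μ (AddAction.toPerm c : Equiv.Perm X) k) := by
  refine ⟨fun m hm => ?_, fun Ω X _ _ P μ _ _ d _ θ φ hR hθ hφ => main hθ hR hφ⟩
  have h1 := Ext.gβ_pos m
  have h2 := Ext.gβ_le_one m
  have h3 := Ext.gβ_le m
  have h4 := Ext.gρ_pos (m + 1)
  refine ⟨1 - Ext.gβ m, by linarith, by linarith, ?_⟩
  intro Ω _ μ _ T hT
  refine ⟨fun hmix => ⟨fun A hA ε hε => ?_, fun f hf hb ε hε => ?_⟩, fun hmix f hf hb hl => ?_⟩
  · obtain ⟨N, hN⟩ := Ext.eventually_gapF.1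
      (Ext.gapB_set hT hm (mixingOfOrder_bridge_P102 μ T m hmix) A hA ε hε)
    exact ⟨N, fun t ht => hN t fun i j hij => by linarith [ht i j hij]⟩
  · obtain ⟨N, hN⟩ := Ext.eventually_gapF.1
      (Ext.gapB_fun hT hm (mixingOfOrder_bridge_P102 μ T m hmix) f hf hb ε hε)
    exact ⟨N, fun t ht => hN t fun i j hij => by linarith [ht i j hij]⟩
  · obtain ⟨l, hl⟩ := hl
    obtain ⟨N, hN⟩ := Ext.gapA (m + 1) hT (mixingOfOrder_bridge_P102 μ T 2 hmix) f hf hb l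
      (by rw [hl]; simp)
    exact ⟨N, fun t ht => (hN t fun i j hij => by linarith [ht i j hij]).trans (by linarith)⟩
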